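import Mathlib
import Vale.Agent.Lib.P160.helper4.SSDefs

/-!
helper94, pool job P160-SS-2b (backup copy): the explicit sums `outF`, `inF` of the lazy chain.
`inF_sub_outF` (summation by parts), `outF_le`, `outF_ge`.
-/

namespace Vale.Agent.Lib.P160.H94

open Finset Vale.Agent.Lib.P160.H4

/-- The indicator of `S` as a function on `ℕ`. -/
noncomputable def ind (n : ℕ) (S : Finset (Fin n)) (i : ℕ) : ℝ :=
  if h : i < n then (if (⟨i, h⟩ : Fin n) ∈ S then 1 else 0) else 0

theorem ind_val (n : ℕ) (S : Finset (Fin n)) (k : Fin n) :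
    ind n S k.val = if k ∈ S then 1 else 0 := by
  unfold ind
  rw [dif_pos k.isLt]

theorem ind_mem {n : ℕ} {S : Finset (Fin n)} {k : Fin n} (h : k ∈ S) : ind n S k.val = 1 := by
  rw [ind_val, if_pos h]

theorem ind_not_mem {n : ℕ} {S : Finset (Fin n)} {k : Fin n} (h : k ∉ S) :
    ind n S k.val = 0 := by
  rw [ind_val, if_neg h]

theorem ind_nonneg (n : ℕ) (S : Finset (Fin n)) (i : ℕ) : 0 ≤ ind n S i := by
  unfold ind
  split_ifs <;> norm_num

theorem ind_le_one (n : ℕ) (S : Finset (Fin n)) (i : ℕ) : ind n S i ≤ 1 := by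
  unfold ind
  split_ifs <;> norm_num

theorem sum_ind (n : ℕ) (S : Finset (Fin n)) : ∑ i ∈ range n, ind n S i = S.card := by
  rw [← Fin.sum_univ_eq_sum_range (ind n S) n]
  simp only [ind_val]
  rw [Finset.sum_boole]
  simp

theorem dsum (n : ℕ) (g : ℕ → ℕ → ℝ) :
    ∑ k : Fin n, ∑ j : Fin n, (if j.val = k.val + 1 then g k.val j.val else 0)
      = ∑ i ∈ range n, (if i + 1 < n then g i (i + 1) else 0) := by
  rw [← Fin.sum_univ_eq_sum_range (fun i => if i + 1 < n then g i (i + 1) else 0) n]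
  refine Finset.sum_congr rfl (fun k _ => ?_)
  by_cases h : k.val + 1 < n
  · rw [if_pos h, Finset.sum_eq_single (⟨k.val + 1, h⟩ : Fin n)]
    · simp
    · intro j _ hj
      rw [if_neg]
      intro hj'
      exact hj (Fin.ext hj')
    · intro hh
      exact absurd (Finset.mem_univ _) hh
  · rw [if_neg h]
    refine Finset.sum_eq_zero (fun j _ => ?_)
    rw [if_neg]
    intro hj
    exact h (hj ▸ j.isLt)

theorem pt_out (n : ℕ) (S : Finset (Fin n)) (k j : Fin n) (w : ℝ) :
    (if j.val = k.val + 1 ∧ k ∈ S ∧ j ∉ S then w else 0)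
      = if j.val = k.val + 1 then ind n S k.val * (1 - ind n S j.val) * w else 0 := by
  by_cases h1 : j.val = k.val + 1
  · rw [if_pos h1]
    by_cases hk : k ∈ S
    · by_cases hj : j ∈ S
      · rw [if_neg (fun h => h.2.2 hj), ind_mem hk, ind_mem hj]
        ring
      · rw [if_pos ⟨h1, hk, hj⟩, ind_mem hk, ind_not_mem hj]
        ring
    · rw [if_neg (fun h => hk h.2.1), ind_not_mem hk]
      ring
  · rw [if_neg h1, if_neg (fun h => h1 h.1)]

theorem pt_in (n : ℕ) (S : Finset (Fin n)) (k j : Fin n) (w : ℝ) :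
    (if j.val = k.val + 1 ∧ k ∉ S ∧ j ∈ S then w else 0)
      = if j.val = k.val + 1 then (1 - ind n S k.val) * ind n S j.val * w else 0 := by
  by_cases h1 : j.val = k.val + 1
  · rw [if_pos h1]
    by_cases hk : k ∈ S
    · rw [if_neg (fun h => h.2.1 hk), ind_mem hk]
      ring
    · by_cases hj : j ∈ S
      · rw [if_pos ⟨h1, hk, hj⟩, ind_not_mem hk, ind_mem hj]
        ring
      · rw [if_neg (fun h => hj h.2.2), ind_not_mem hj]
        ring
  · rw [if_neg h1, if_neg (fun h => h1 h.1)]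

theorem outF_nf (n : ℕ) (S : Finset (Fin n)) :
    outF n S = ∑ i ∈ range n, (if i + 1 < n then
        ind n S i * (1 - ind n S (i + 1)) * (1 - ((i + 1 : ℕ) : ℝ) / n) else 0)
      + (if 0 < n then (1 / 2 : ℝ) * (1 - ind n S 0) else 0) := by
  unfold outF
  congr 1
  · rw [← dsum n (fun a b => ind n S a * (1 - ind n S b) * (1 - (b : ℝ) / n))]
    exact Finset.sum_congr rfl (fun k _ => Finset.sum_congr rfl (fun j _ => pt_out n S k j _))
  · have hpt : ∀ j : Fin n, (if j.val = 0 ∧ j ∉ S then (1 / 2 : ℝ) else 0)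
        = (fun i : ℕ => if i = 0 then (1 / 2 : ℝ) * (1 - ind n S i) else 0) j.val := by
      intro j
      show _ = if j.val = 0 then (1 / 2 : ℝ) * (1 - ind n S j.val) else 0
      by_cases h0 : j.val = 0
      · rw [if_pos h0]
        by_cases hj : j ∈ S
        · rw [if_neg (fun h => h.2 hj), ind_mem hj]
          ring
        · rw [if_pos ⟨h0, hj⟩, ind_not_mem hj]
          ring
      · rw [if_neg h0, if_neg (fun h => h0 h.1)]
    rw [Finset.sum_congr rfl (fun j _ => hpt j),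
      Fin.sum_univ_eq_sum_range (fun i : ℕ => if i = 0 then (1 / 2 : ℝ) * (1 - ind n S i) else 0) n,
      Finset.sum_ite_eq' (range n) 0 (fun i => (1 / 2 : ℝ) * (1 - ind n S i))]
    simp [Finset.mem_range]

theorem inF_nf (n : ℕ) (S : Finset (Fin n)) :
    inF n S = ∑ i ∈ range n, (if i + 1 < n then
        (1 - ind n S i) * ind n S (i + 1) * (1 - ((i + 1 : ℕ) : ℝ) / n) else 0)
      + (if 0 < n then (1 / 2 : ℝ) * ind n S 0 else 0) := by
  unfold inF
  congr 1
  · rw [← dsum n (fun a b => (1 - ind n S a) * ind n S b * (1 - (b : ℝ) / n))]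
    exact Finset.sum_congr rfl (fun k _ => Finset.sum_congr rfl (fun j _ => pt_in n S k j _))
  · have hpt : ∀ j : Fin n, (if j.val = 0 ∧ j ∈ S then (1 / 2 : ℝ) else 0)
        = (fun i : ℕ => if i = 0 then (1 / 2 : ℝ) * ind n S i else 0) j.val := by
      intro j
      show _ = if j.val = 0 then (1 / 2 : ℝ) * ind n S j.val else 0
      by_cases h0 : j.val = 0
      · rw [if_pos h0]
        by_cases hj : j ∈ S
        · rw [if_pos ⟨h0, hj⟩, ind_mem hj]
          ring
        · rw [if_neg (fun h => hj h.2), ind_not_mem hj]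
          ring
      · rw [if_neg h0, if_neg (fun h => h0 h.1)]
    rw [Finset.sum_congr rfl (fun j _ => hpt j),
      Fin.sum_univ_eq_sum_range (fun i : ℕ => if i = 0 then (1 / 2 : ℝ) * ind n S i else 0) n,
      Finset.sum_ite_eq' (range n) 0 (fun i => (1 / 2 : ℝ) * ind n S i)]
    simp [Finset.mem_range]

theorem desc_nf (n : ℕ) (S : Finset (Fin n)) :
    (desc n S : ℝ) = ∑ i ∈ range n,
      (if 2 * (i + 1) ≤ n then ind n S i * (1 - ind n S (i + 1)) else 0) := by
  unfold desc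
  rw [Finset.card_filter]
  push_cast
  rw [← Fin.sum_univ_eq_sum_range
    (fun i => if 2 * (i + 1) ≤ n then ind n S i * (1 - ind n S (i + 1)) else 0) n]
  refine Finset.sum_congr rfl (fun k _ => ?_)
  by_cases h2 : 2 * (k.val + 1) ≤ n
  · have hk1 : k.val + 1 < n := by
      have := k.isLt
      omega
    rw [if_pos h2]
    have hj : ind n S (k.val + 1) = if (⟨k.val + 1, hk1⟩ : Fin n) ∈ S then 1 else 0 :=
      ind_val n S ⟨k.val + 1, hk1⟩
    by_cases hk : k ∈ S
    · by_cases hj' : (⟨k.val + 1, hk1⟩ : Fin n) ∈ S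
      · rw [if_neg (fun h => h.2.2 ⟨k.val + 1, hk1⟩ rfl hj'), ind_mem hk, hj, if_pos hj']
        ring
      · have hall : ∀ j : Fin n, j.val = k.val + 1 → j ∉ S := by
          intro j hjv
          have : j = ⟨k.val + 1, hk1⟩ := Fin.ext hjv
          rw [this]
          exact hj'
        rw [if_pos ⟨h2, hk, hall⟩, ind_mem hk, hj, if_neg hj']
        ring
    · rw [if_neg (fun h => hk h.2.1), ind_not_mem hk]
      ring
  · rw [if_neg h2, if_neg (fun h => h2 h.1)]

/-- Summation by parts. -/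
theorem by_parts (s : ℕ → ℝ) (c : ℝ) (hc : c ≠ 0) (m : ℕ) :
    ∑ i ∈ range m, (s (i + 1) - s i) * (1 - ((i + 1 : ℕ) : ℝ) / c)
      = (1 - (m : ℝ) / c) * s m + (1 / c) * ∑ j ∈ range m, s j - s 0 := by
  induction m with
  | zero => simp
  | succ m ih =>
    rw [Finset.sum_range_succ, ih, Finset.sum_range_succ]
    push_cast
    field_simp
    ring

theorem inF_sub_outF (n : ℕ) (hn : 1 ≤ n) (S : Finset (Fin n)) :
    inF n S - outF n S = ((S.card : ℝ) - n / 2) / n := by
  obtain ⟨N, rfl⟩ : ∃ N, n = N + 1 := ⟨n - 1, by omega⟩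
  rw [inF_nf, outF_nf, if_pos (Nat.succ_pos N), if_pos (Nat.succ_pos N)]
  have hsum : ∑ i ∈ range (N + 1), (if i + 1 < N + 1 then
        (1 - ind (N + 1) S i) * ind (N + 1) S (i + 1) * (1 - ((i + 1 : ℕ) : ℝ) / ((N + 1 : ℕ) : ℝ))
        else 0)
      - ∑ i ∈ range (N + 1), (if i + 1 < N + 1 then
        ind (N + 1) S i * (1 - ind (N + 1) S (i + 1)) * (1 - ((i + 1 : ℕ) : ℝ) / ((N + 1 : ℕ) : ℝ))
        else 0)
      = ∑ i ∈ range N, (ind (N + 1) S (i + 1) - ind (N + 1) S i)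
          * (1 - ((i + 1 : ℕ) : ℝ) / ((N + 1 : ℕ) : ℝ)) := by
    rw [← Finset.sum_sub_distrib, Finset.sum_range_succ, if_neg (lt_irrefl _), if_neg (lt_irrefl _),
      sub_zero, add_zero]
    refine Finset.sum_congr rfl (fun i hi => ?_)
    have hi' : i + 1 < N + 1 := by
      have := Finset.mem_range.1 hi
      omega
    rw [if_pos hi', if_pos hi']
    ring
  have hc : ((N + 1 : ℕ) : ℝ) ≠ 0 := by positivity
  have hparts := by_parts (ind (N + 1) S) ((N + 1 : ℕ) : ℝ) hc N
  have hcard := sum_ind (N + 1) S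
  rw [Finset.sum_range_succ] at hcard
  have hsum' : ∑ j ∈ range N, ind (N + 1) S j = (S.card : ℝ) - ind (N + 1) S N := by linarith
  have key : (∑ i ∈ range (N + 1), (if i + 1 < N + 1 then
        (1 - ind (N + 1) S i) * ind (N + 1) S (i + 1) * (1 - ((i + 1 : ℕ) : ℝ) / ((N + 1 : ℕ) : ℝ))
        else 0) + 1 / 2 * ind (N + 1) S 0)
      - (∑ i ∈ range (N + 1), (if i + 1 < N + 1 then
        ind (N + 1) S i * (1 - ind (N + 1) S (i + 1)) * (1 - ((i + 1 : ℕ) : ℝ) / ((N + 1 : ℕ) : ℝ))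
        else 0) + 1 / 2 * (1 - ind (N + 1) S 0))
      = (1 - (N : ℝ) / ((N + 1 : ℕ) : ℝ)) * ind (N + 1) S N
        + (1 / ((N + 1 : ℕ) : ℝ)) * ((S.card : ℝ) - ind (N + 1) S N) - 1 / 2 := by
    rw [hsum'] at hparts
    linarith [hsum, hparts]
  rw [key]
  push_cast
  field_simp
  ring

theorem outF_le (n : ℕ) (S : Finset (Fin n)) : outF n S ≤ n := by
  rcases Nat.eq_zero_or_pos n with h0 | hpos
  · subst h0
    simp [outF]
  obtain ⟨N, rfl⟩ : ∃ N, n = N + 1 := ⟨n - 1, by omega⟩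
  rw [outF_nf, if_pos (Nat.succ_pos N), Finset.sum_range_succ, if_neg (lt_irrefl _), add_zero]
  have h1 : ∑ i ∈ range N, (if i + 1 < N + 1 then
        ind (N + 1) S i * (1 - ind (N + 1) S (i + 1)) * (1 - ((i + 1 : ℕ) : ℝ) / ((N + 1 : ℕ) : ℝ))
        else 0) ≤ ∑ _i ∈ range N, (1 : ℝ) := by
    refine Finset.sum_le_sum (fun i hi => ?_)
    have hi' : i + 1 < N + 1 := by
      have := Finset.mem_range.1 hi
      omega
    rw [if_pos hi']
    have ha0 := ind_nonneg (N + 1) S i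
    have ha1 := ind_le_one (N + 1) S i
    have hb0 := ind_nonneg (N + 1) S (i + 1)
    have hb1 := ind_le_one (N + 1) S (i + 1)
    have hw0 : 0 ≤ 1 - ((i + 1 : ℕ) : ℝ) / ((N + 1 : ℕ) : ℝ) := by
      rw [sub_nonneg, div_le_one (by positivity)]
      exact_mod_cast hi'.le
    have hw1 : 1 - ((i + 1 : ℕ) : ℝ) / ((N + 1 : ℕ) : ℝ) ≤ 1 := by
      have : (0 : ℝ) ≤ ((i + 1 : ℕ) : ℝ) / ((N + 1 : ℕ) : ℝ) := by positivity
      linarith
    have hab : ind (N + 1) S i * (1 - ind (N + 1) S (i + 1)) ≤ 1 := by nlinarith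
    have hab0 : 0 ≤ ind (N + 1) S i * (1 - ind (N + 1) S (i + 1)) :=
      mul_nonneg ha0 (by linarith)
    nlinarith
  have h2 : (1 / 2 : ℝ) * (1 - ind (N + 1) S 0) ≤ 1 / 2 := by
    have := ind_nonneg (N + 1) S 0
    linarith
  rw [Finset.sum_const, Finset.card_range, nsmul_eq_mul, mul_one] at h1
  have hN : ((N + 1 : ℕ) : ℝ) = (N : ℝ) + 1 := by push_cast; ring
  rw [hN] at h1 ⊢
  linarith

theorem outF_ge (n : ℕ) (S : Finset (Fin n)) : (desc n S : ℝ) / 2 ≤ outF n S := by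
  rw [outF_nf, desc_nf, Finset.sum_div]
  have hent : (0 : ℝ) ≤ (if 0 < n then (1 / 2 : ℝ) * (1 - ind n S 0) else 0) := by
    split_ifs
    · have := ind_le_one n S 0
      linarith
    · exact le_rfl
  refine le_trans (Finset.sum_le_sum (fun i hi => ?_)) (le_add_of_nonneg_right hent)
  have hin : i < n := Finset.mem_range.1 hi
  have ha0 := ind_nonneg n S i
  have hb1 := ind_le_one n S (i + 1)
  have hab0 : 0 ≤ ind n S i * (1 - ind n S (i + 1)) := mul_nonneg ha0 (by linarith)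
  by_cases h2 : 2 * (i + 1) ≤ n
  · have hi1 : i + 1 < n := by omega
    rw [if_pos h2, if_pos hi1]
    have hnpos : (0 : ℝ) < (n : ℝ) := by
      have : 0 < n := by omega
      exact_mod_cast this
    have hw : (1 / 2 : ℝ) ≤ 1 - ((i + 1 : ℕ) : ℝ) / (n : ℝ) := by
      have h2' : (2 : ℝ) * ((i + 1 : ℕ) : ℝ) ≤ (n : ℝ) := by exact_mod_cast h2
      have : ((i + 1 : ℕ) : ℝ) / (n : ℝ) ≤ 1 / 2 := by
        rw [div_le_iff₀ hnpos]
        linarith
      linarith
    nlinarith
  · rw [if_neg h2, zero_div]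
    split_ifs with hi1
    · have hw0 : 0 ≤ 1 - ((i + 1 : ℕ) : ℝ) / (n : ℝ) := by
        have hnpos : (0 : ℝ) < (n : ℝ) := by
          have : 0 < n := by omega
          exact_mod_cast this
        rw [sub_nonneg, div_le_one hnpos]
        exact_mod_cast hi1.le
      exact mul_nonneg hab0 hw0
    · exact le_rfl

end Vale.Agent.Lib.P160.H94
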