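import Vale.Agent.Lib.P160.Closed

/-!
P160: exposing everything but a `T × T` block of a symmetric sign matrix, vector version.

If, among the symmetric sign matrices with a property `P` that agree outside the block
`T × T`, a vector `U A` and a right-hand side `b A` are determined, and the block satisfies
`A[T,T] (U A)_T = (b A)_T` with at least `s` nonzero coordinates of `U A` on `T`, then `P` has
at most `G t s * 2 ^ (choose (n + 1) 2 - choose (t + 1) 2)` elements (`t = |T|`), stated without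
subtraction as `block_count_vec`.  Also `G_anti`: `G n s` is antitone in `s` for `s ≤ n`.
-/

namespace Vale.Agent.Lib.P160

open Finset Matrix

namespace H94

variable {ι : Type} [Fintype ι] [DecidableEq ι]

/-- the matrix with the entries of the block `T × T` replaced by ones -/
def out (T : Finset ι) (A : Matrix ι ι ℤˣ) : Matrix ι ι ℤˣ :=
  fun i j => if i ∈ T ∧ j ∈ T then 1 else A i j

/-- the block `T × T` of a matrix -/
def blk (T : Finset ι) (A : Matrix ι ι ℤˣ) : Matrix {k // k ∈ T} {k // k ∈ T} ℤˣ :=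
  fun i j => A i.1 j.1

/-- the matrix with block `B` on `T × T` and the entries of `O` elsewhere -/
def glue (T : Finset ι) (O : Matrix ι ι ℤˣ) (B : Matrix {k // k ∈ T} {k // k ∈ T} ℤˣ) :
    Matrix ι ι ℤˣ :=
  fun i j => if h : i ∈ T ∧ j ∈ T then B ⟨i, h.1⟩ ⟨j, h.2⟩ else O i j

omit [Fintype ι] in
theorem glue_of_mem (T : Finset ι) (O : Matrix ι ι ℤˣ) (B : Matrix {k // k ∈ T} {k // k ∈ T} ℤˣ)
    {i j : ι} (h : i ∈ T ∧ j ∈ T) : glue T O B i j = B ⟨i, h.1⟩ ⟨j, h.2⟩ :=
  dif_pos h

omit [Fintype ι] in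
theorem glue_of_not (T : Finset ι) (O : Matrix ι ι ℤˣ) (B : Matrix {k // k ∈ T} {k // k ∈ T} ℤˣ)
    {i j : ι} (h : ¬ (i ∈ T ∧ j ∈ T)) : glue T O B i j = O i j :=
  dif_neg h

omit [Fintype ι] in
theorem out_of_mem (T : Finset ι) (A : Matrix ι ι ℤˣ) {i j : ι} (h : i ∈ T ∧ j ∈ T) :
    out T A i j = 1 :=
  if_pos h

omit [Fintype ι] in
theorem out_of_not (T : Finset ι) (A : Matrix ι ι ℤˣ) {i j : ι} (h : ¬ (i ∈ T ∧ j ∈ T)) :
    out T A i j = A i j :=
  if_neg h

omit [Fintype ι] in
theorem out_eq_iff (T : Finset ι) (A A' : Matrix ι ι ℤˣ) :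
    out T A = out T A' ↔ ∀ i j, ¬ (i ∈ T ∧ j ∈ T) → A i j = A' i j := by
  constructor
  · intro h i j hij
    have h1 := congrFun (congrFun h i) j
    unfold out at h1
    rw [if_neg hij, if_neg hij] at h1
    exact h1
  · intro h
    funext i j
    unfold out
    by_cases hij : i ∈ T ∧ j ∈ T
    · rw [if_pos hij, if_pos hij]
    · rw [if_neg hij, if_neg hij]
      exact h i j hij

/-- one step of the antitonicity of `G n ·` -/
theorem G_anti_step {n s : ℕ} (h : s + 1 ≤ n) : G n (s + 1) ≤ G n s := by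
  have h1 := G_eq' (n := n) (s := s + 1) h
  have h2 := G_eq' (n := n) (s := s) (by omega)
  have h3 : (G n (s + 1) : ℝ) ≤ (G n s : ℝ) := by
    rw [h1, h2, Qr_succ]
    obtain ⟨k, hk⟩ : ∃ k, n - (s + 1) = k := ⟨_, rfl⟩
    have e : n - s = k + 1 := by omega
    rw [hk, e]
    have hL0 : 0 ≤ Lr (s + 1) := (Lr_pos (s + 1)).le
    have hpow : Lr (s + 1) ^ (k + 1) ≤ Lr s ^ (k + 1) :=
      pow_le_pow_left₀ hL0 (Lr_succ_le s) (k + 1)
    have hc : (0 : ℝ) ≤ 2 ^ (Nat.choose (n + 1) 2) * Qr s :=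
      mul_nonneg (by positivity) (Qr_pos s).le
    calc (2 : ℝ) ^ (Nat.choose (n + 1) 2) * Lr (s + 1) ^ k * (Qr s * Lr (s + 1))
        = (2 ^ (Nat.choose (n + 1) 2) * Qr s) * Lr (s + 1) ^ (k + 1) := by
          rw [pow_succ]; ring
      _ ≤ (2 ^ (Nat.choose (n + 1) 2) * Qr s) * Lr s ^ (k + 1) :=
          mul_le_mul_of_nonneg_left hpow hc
      _ = 2 ^ (Nat.choose (n + 1) 2) * Lr s ^ (k + 1) * Qr s := by ring
  exact_mod_cast h3

theorem G_anti_add (n s : ℕ) : ∀ d : ℕ, s + d ≤ n → G n (s + d) ≤ G n s := by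
  intro d
  induction d with
  | zero => intro _; exact le_rfl
  | succ d ih =>
    intro hd
    have h1 : G n (s + d + 1) ≤ G n (s + d) := G_anti_step (by omega)
    exact h1.trans (ih (by omega))

end H94

/-- `G n s` is antitone in the number `s` of nonzero coordinates. -/
theorem G_anti {n s s' : ℕ} (h : s ≤ s') (h' : s' ≤ n) : G n s' ≤ G n s := by
  obtain ⟨d, rfl⟩ := Nat.exists_eq_add_of_le h
  exact H94.G_anti_add n s d h'

open Classical in
/-- **Block exposure, vector version.** -/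
theorem block_count_vec {ι : Type} [Fintype ι] [DecidableEq ι] (T : Finset ι) (s : ℕ)
    (P : Matrix ι ι ℤˣ → Prop) (U b : Matrix ι ι ℤˣ → ι → ℝ)
    (hU : ∀ A ∈ symSet ι, ∀ B ∈ symSet ι, P A → P B →
      (∀ i j, ¬ (i ∈ T ∧ j ∈ T) → A i j = B i j) → U A = U B ∧ b A = b B)
    (hP : ∀ A ∈ symSet ι, P A →
      (∀ i ∈ T, ∑ j ∈ T, ((A i j : ℤ) : ℝ) * U A j = b A i) ∧
        s ≤ (T.filter fun j => U A j ≠ 0).card) :
    ((symSet ι).filter P).card * 2 ^ (Nat.choose (T.card + 1) 2) ≤
      G T.card s * (symSet ι).card := by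
  set S := (symSet ι).filter P with hS
  set I := S.image (H94.out T) with hI
  have hcardT : Fintype.card {k // k ∈ T} = T.card := Fintype.card_coe T
  -- (1) the fibres of `out` are small
  have h1 : S.card ≤ G T.card s * I.card := by
    refine Finset.card_le_mul_card_image S (G T.card s) ?_
    intro O hO
    obtain ⟨A0, hA0, rfl⟩ := Finset.mem_image.mp hO
    have hA0' := Finset.mem_filter.mp hA0
    have hle := count_eq_le T.card {k // k ∈ T} hcardT (fun j => U A0 j.1)
      (fun i => b A0 i.1)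
    have hs0 := (hP A0 hA0'.1 hA0'.2).2
    have hcard : (univ.filter fun j : {k // k ∈ T} => U A0 j.1 ≠ 0).card =
        (T.filter fun j => U A0 j ≠ 0).card := by
      refine Finset.card_bij (fun j _ => j.1) ?_ ?_ ?_
      · intro j hj
        rw [Finset.mem_filter] at hj ⊢
        exact ⟨j.2, hj.2⟩
      · intro j _ j' _ hjj'
        exact Subtype.ext hjj'
      · intro k hk
        rw [Finset.mem_filter] at hk
        refine ⟨⟨k, hk.1⟩, ?_, rfl⟩
        rw [Finset.mem_filter]
        exact ⟨Finset.mem_univ _, hk.2⟩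
    have hle_t : (univ.filter fun j : {k // k ∈ T} => U A0 j.1 ≠ 0).card ≤ T.card := by
      rw [hcard]
      exact Finset.card_filter_le _ _
    have hGa : G T.card (univ.filter fun j : {k // k ∈ T} => U A0 j.1 ≠ 0).card ≤ G T.card s :=
      G_anti (by rw [hcard]; exact hs0) hle_t
    refine le_trans ?_ (hle.trans hGa)
    refine Finset.card_le_card_of_injOn (H94.blk T) ?_ ?_
    · intro A hA
      have hA1 := Finset.mem_filter.mp (Finset.mem_coe.mp hA)
      have hA2 := Finset.mem_filter.mp hA1.1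
      rw [Finset.mem_coe, Finset.mem_filter]
      refine ⟨?_, ?_⟩
      · rw [mem_symSet]
        intro a b
        exact (mem_symSet.mp hA2.1) a.1 b.1
      · funext i
        rw [toR_mulVec]
        unfold sdot
        have hagree := (H94.out_eq_iff T A A0).mp hA1.2
        obtain ⟨hUU, hbb⟩ := hU A hA2.1 A0 hA0'.1 hA2.2 hA0'.2 hagree
        have h2 := (hP A hA2.1 hA2.2).1 i.1 i.2
        rw [hUU, hbb] at h2
        rw [← h2]
        exact Finset.sum_coe_sort T (fun j => ((A i.1 j : ℤ) : ℝ) * U A0 j)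
    · intro A hA A' hA' hb
      have hA1 := Finset.mem_filter.mp (Finset.mem_coe.mp hA)
      have hA1' := Finset.mem_filter.mp (Finset.mem_coe.mp hA')
      have hagree := (H94.out_eq_iff T A A').mp (hA1.2.trans hA1'.2.symm)
      refine Matrix.ext (fun i j => ?_)
      by_cases hij : i ∈ T ∧ j ∈ T
      · exact congrFun (congrFun hb ⟨i, hij.1⟩) ⟨j, hij.2⟩
      · exact hagree i j hij
  -- (2) gluing a block into an exposed matrix is injective
  have h2 : I.card * (symSet {k // k ∈ T}).card ≤ (symSet ι).card := by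
    rw [← Finset.card_product]
    refine Finset.card_le_card_of_injOn (fun p => H94.glue T p.1 p.2) ?_ ?_
    · intro p hp
      rw [Finset.mem_coe, Finset.mem_product] at hp
      obtain ⟨A, hA, hAO⟩ := Finset.mem_image.mp hp.1
      have hAs := mem_symSet.mp (Finset.mem_filter.mp hA).1
      have hBs := mem_symSet.mp hp.2
      rw [Finset.mem_coe, mem_symSet]
      intro a b
      show H94.glue T p.1 p.2 a b = H94.glue T p.1 p.2 b a
      by_cases hab : a ∈ T ∧ b ∈ T
      · have hba : b ∈ T ∧ a ∈ T := ⟨hab.2, hab.1⟩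
        rw [H94.glue_of_mem T p.1 p.2 hab, H94.glue_of_mem T p.1 p.2 hba]
        exact hBs _ _
      · have hba : ¬ (b ∈ T ∧ a ∈ T) := fun h' => hab ⟨h'.2, h'.1⟩
        rw [H94.glue_of_not T p.1 p.2 hab, H94.glue_of_not T p.1 p.2 hba, ← hAO,
          H94.out_of_not T A hab, H94.out_of_not T A hba]
        exact hAs a b
    · intro p hp p' hp' hg
      rw [Finset.mem_coe, Finset.mem_product] at hp hp'
      obtain ⟨A, hA, hAO⟩ := Finset.mem_image.mp hp.1
      obtain ⟨A', hA', hAO'⟩ := Finset.mem_image.mp hp'.1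
      have hg' : ∀ i j, H94.glue T p.1 p.2 i j = H94.glue T p'.1 p'.2 i j :=
        fun i j => congrFun (congrFun hg i) j
      refine Prod.ext ?_ ?_
      · refine Matrix.ext (fun i j => ?_)
        by_cases hij : i ∈ T ∧ j ∈ T
        · rw [← hAO, ← hAO', H94.out_of_mem T A hij, H94.out_of_mem T A' hij]
        · have h3 := hg' i j
          rw [H94.glue_of_not T p.1 p.2 hij, H94.glue_of_not T p'.1 p'.2 hij] at h3
          exact h3
      · refine Matrix.ext (fun i j => ?_)
        have h3 := hg' i.1 j.1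
        rw [H94.glue_of_mem T p.1 p.2 ⟨i.2, j.2⟩, H94.glue_of_mem T p'.1 p'.2 ⟨i.2, j.2⟩] at h3
        exact h3
  have h3 : (symSet {k // k ∈ T}).card = 2 ^ (Nat.choose (T.card + 1) 2) := by
    rw [card_symSet, hcardT]
  calc S.card * 2 ^ (Nat.choose (T.card + 1) 2)
      ≤ (G T.card s * I.card) * 2 ^ (Nat.choose (T.card + 1) 2) :=
        Nat.mul_le_mul_right _ h1
    _ = G T.card s * (I.card * (symSet {k // k ∈ T}).card) := by
        rw [h3, Nat.mul_assoc]
    _ ≤ G T.card s * (symSet ι).card := Nat.mul_le_mul_left _ h2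

end Vale.Agent.Lib.P160
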